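import Vale.Agent.Q155.Fin

/-!
# P155: double-dimer loops and nested CLE₄, in bounded domains and in the upper half-plane

Nested CLE₄ is defined by the Brownian loop soup of central charge `1`; it is unique and
conformally invariant.  It is the limit in law of the double-dimer loops of Temperleyan
approximations of bounded simply connected domains, and of the double-dimer loops of the
infinite-volume Temperleyan law in the upper half-plane (drawn in the unit disc by the Cayley map,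
that is, for the spherical metric).
-/

namespace Vale.Agent.Results.P155.A0HalfPlane

open MeasureTheory Filter Topology Vale.Agent.P155 Vale.Agent.P155.Q1 Vale.Agent.P155.Tree
  Vale.Agent.P155.BL Vale.Agent.P155.Soup Vale.Agent.Q155

/-- **The double-dimer CLE₄ conjecture, in bounded domains and in the half-plane.** -/
theorem result :
    ((∃ W, IsWiener W) ∧ ∀ W, IsWiener W → ∀ Ω, Dom Ω →
      ∃ (Θ : Type) (_ : MeasurableSpace Θ) (P : Measure Θ) (L : ℕ → Θ → C(S1, ℂ)),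
        IsPoisson P (intensity W Ω) L) ∧
    ∃ μ : Set ℂ → Measure LoopColl, IsSoupCLE μ ∧
      (∀ ν, IsSoupCLE ν → ∀ Ω, Dom Ω → ν Ω = μ Ω) ∧
      (∀ (Ω Ω' : Set ℂ) (f g : ℂ → ℂ), Dom Ω → Dom Ω' → CI.Conf Ω Ω' f g →
        ∃ (Θ : Type) (_ : MeasurableSpace Θ) (Q : Measure Θ) (Γ Γ' : Θ → LoopColl),
          IsProbabilityMeasure Q ∧ AEMeasurable Γ Q ∧ AEMeasurable Γ' Q ∧ Q.map Γ = μ Ω ∧
          Q.map Γ' = μ Ω' ∧ ∀ᵐ x ∂Q, CI.MapsColl Ω Ω' f (Γ x) (Γ' x)) ∧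
      (∀ Ω, Dom Ω → (∃ S : Approx Ω, S.Outer) ∧
        ∀ S : Approx Ω, ((∀ F : LoopColl → ℝ, Continuous F → (∃ C, ∀ Γ, |F Γ| ≤ C) →
          Tendsto (fun n => Ex (S.T n).V (fun ω => F (LL (S.δ n) (S.a n) ω))) atTop
            (𝓝 (∫ Γ, F Γ ∂(μ Ω)))) ↔ S.Outer) ∧ (IsConnected (closure Ω)ᶜ → S.Outer)) ∧
      (∃ T, Exh T) ∧
      (∀ (δ : ℝ) (a : ℂ) (ω : Conf), 0 < δ → 0 ≤ a.im → IsHPM ω.1 → IsHPM ω.2 →
        (∀ v : Pt, 0 ≤ v.2 → Continuous (cay ∘ (lcurve δ a ω v).c)) ∧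
        LocFin (Loops ω) (cloop δ a ω)) ∧
      ∃ P, IsHLaw P ∧ (∀ Q, IsHLaw Q → Q = P) ∧ (∀ᵐ m ∂P, IsHPM m) ∧
        (∀ᵐ ω ∂(P.prod P), ∀ v, (comp ω v).Finite) ∧
        ∀ (δ : ℕ → ℝ) (a : ℕ → ℂ), (∀ n, 0 < δ n) → Tendsto δ atTop (𝓝 0) →
          (∀ n, 0 ≤ (a n).im) → Tendsto a atTop (𝓝 0) →
          (∀ n, AEMeasurable (LH (δ n) (a n)) (P.prod P)) ∧
          ∀ F : LoopColl → ℝ, Continuous F → (∃ C, ∀ Γ, |F Γ| ≤ C) →
            Tendsto (fun n => ∫ ω, F (LH (δ n) (a n) ω) ∂(P.prod P)) atTop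
              (𝓝 (∫ Γ, F Γ ∂(μ (Metric.ball 0 1)))) :=
  fin_all

end Vale.Agent.Results.P155.A0HalfPlane
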